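import Mathlib

namespace Vale.Agent.P110

open Finset Polynomial

/-- discrete Parseval identity on the `K`-th roots of unity -/
lemma parseval (K : ℕ) (hK : 0 < K) (ζ : ℂ) (hζ : IsPrimitiveRoot ζ K) (q : ℕ → ℝ) :
    ∑ j ∈ range K, ‖∑ i ∈ range K, (q i : ℂ) * (ζ ^ j) ^ i‖ ^ 2
      = K * ∑ i ∈ range K, (q i) ^ 2 := by
  have hK' : K ≠ 0 := hK.ne'
  have hnorm : ‖ζ‖ = 1 := hζ.norm'_eq_one hK'
  have hconj : (starRingEnd ℂ) ζ = ζ⁻¹ := by
    rw [Complex.inv_def, Complex.normSq_eq_norm_sq, hnorm]; simp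
  have hζ0 : ζ ≠ 0 := hζ.ne_zero hK'
  have hgeom : ∀ i ∈ range K, ∀ i' ∈ range K,
      ∑ j ∈ range K, (ζ ^ i * (ζ⁻¹) ^ i') ^ j = if i = i' then (K : ℂ) else 0 := by
    intro i hi i' hi'
    split_ifs with h
    · subst h
      have : ζ ^ i * (ζ⁻¹) ^ i = 1 := by
        rw [← mul_pow, mul_inv_cancel₀ hζ0, one_pow]
      rw [this]; simp
    · have hne : ζ ^ i * (ζ⁻¹) ^ i' ≠ 1 := by
        intro h1
        apply h
        apply hζ.pow_inj (mem_range.1 hi) (mem_range.1 hi')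
        have h2 : ζ ^ i * (ζ⁻¹) ^ i' * ζ ^ i' = ζ ^ i' := by rw [h1, one_mul]
        rw [mul_assoc, ← mul_pow, inv_mul_cancel₀ hζ0, one_pow, mul_one] at h2
        exact h2
      rw [geom_sum_eq hne]
      have : (ζ ^ i * (ζ⁻¹) ^ i') ^ K = 1 := by
        rw [mul_pow, ← pow_mul, ← pow_mul, mul_comm i K, mul_comm i' K, pow_mul, pow_mul,
          inv_pow, hζ.pow_eq_one]
        simp
      rw [this]; simp
  have hC : (((∑ j ∈ range K, ‖∑ i ∈ range K, (q i : ℂ) * (ζ ^ j) ^ i‖ ^ 2 : ℝ)) : ℂ)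
      = ((K * ∑ i ∈ range K, (q i) ^ 2 : ℝ) : ℂ) := by
    push_cast
    have h1 : ∀ j ∈ range K, ((‖∑ i ∈ range K, (q i : ℂ) * (ζ ^ j) ^ i‖ : ℂ)) ^ 2
        = ∑ i ∈ range K, ∑ i' ∈ range K, (q i : ℂ) * (q i' : ℂ) * (ζ ^ i * (ζ⁻¹) ^ i') ^ j := by
      intro j _
      rw [← Complex.mul_conj', map_sum, sum_mul_sum]
      apply sum_congr rfl
      intro i _
      apply sum_congr rfl
      intro i' _
      simp only [map_mul, map_pow, Complex.conj_ofReal, hconj]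
      ring
    rw [sum_congr rfl h1, sum_comm]
    have h2 : ∀ i ∈ range K, ∑ j ∈ range K, ∑ i' ∈ range K,
        (q i : ℂ) * (q i' : ℂ) * (ζ ^ i * (ζ⁻¹) ^ i') ^ j = (K : ℂ) * (q i : ℂ) ^ 2 := by
      intro i hi
      rw [sum_comm]
      have h3 : ∀ i' ∈ range K, ∑ j ∈ range K, (q i : ℂ) * (q i' : ℂ) * (ζ ^ i * (ζ⁻¹) ^ i') ^ j
          = if i = i' then (q i : ℂ) * (q i' : ℂ) * K else 0 := by
        intro i' hi'
        rw [← mul_sum, hgeom i hi i' hi']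
        split_ifs <;> simp
      rw [sum_congr rfl h3, sum_ite_eq, if_pos hi]
      ring
    rw [sum_congr rfl h2, mul_sum]
  exact_mod_cast hC


/-- the polynomial with coefficients `e 0, ..., e (N-1)` -/
noncomputable def Pp (N : ℕ) (e : ℕ → ℤ) : ℤ[X] := ∑ k ∈ range N, C (e k) * X ^ k

/-- the reversed polynomial -/
noncomputable def Rp (N : ℕ) (e : ℕ → ℤ) : ℤ[X] := ∑ k ∈ range N, C (e (N - 1 - k)) * X ^ k

lemma coeff_Pp (N : ℕ) (e : ℕ → ℤ) (i : ℕ) : (Pp N e).coeff i = if i < N then e i else 0 := by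
  simp only [Pp, finset_sum_coeff, coeff_C_mul_X_pow]
  rw [sum_ite_eq]
  simp

lemma coeff_Rp (N : ℕ) (e : ℕ → ℤ) (i : ℕ) :
    (Rp N e).coeff i = if i < N then e (N - 1 - i) else 0 := by
  simp only [Rp, finset_sum_coeff, coeff_C_mul_X_pow]
  rw [sum_ite_eq]
  simp

lemma natDegree_Pp (N : ℕ) (e : ℕ → ℤ) : (Pp N e).natDegree ≤ N - 1 := by
  apply natDegree_sum_le_of_forall_le
  intro k hk
  have := mem_range.1 hk
  exact (natDegree_C_mul_X_pow_le _ _).trans (by omega)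

lemma natDegree_Rp (N : ℕ) (e : ℕ → ℤ) : (Rp N e).natDegree ≤ N - 1 := by
  apply natDegree_sum_le_of_forall_le
  intro k hk
  have := mem_range.1 hk
  exact (natDegree_C_mul_X_pow_le _ _).trans (by omega)

lemma coeff_mid (N : ℕ) (hN : 0 < N) (e : ℕ → ℤ) (he : ∀ k < N, e k = 1 ∨ e k = -1) :
    (Pp N e * Rp N e).coeff (N - 1) = N := by
  rw [coeff_mul, Finset.Nat.sum_antidiagonal_eq_sum_range_succ_mk]
  have h1 : (N - 1).succ = N := by omega
  rw [h1]
  have h2 : ∀ k ∈ range N, (Pp N e).coeff k * (Rp N e).coeff (N - 1 - k) = 1 := by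
    intro k hk
    have hk' := mem_range.1 hk
    rw [coeff_Pp, coeff_Rp, if_pos hk', if_pos (by omega)]
    have : N - 1 - (N - 1 - k) = k := by omega
    rw [this]
    rcases he k hk' with h | h <;> rw [h] <;> norm_num
  rw [sum_congr rfl h2]
  simp

lemma coeff_even_ne_zero (N : ℕ) (e : ℕ → ℤ) (he : ∀ k < N, e k = 1 ∨ e k = -1) (r : ℕ)
    (hr : r < N) : (Pp N e * Rp N e).coeff (2 * r) ≠ 0 := by
  intro h0
  have hφ : ∀ k < N, (Int.castRingHom (ZMod 2)) (e k) = 1 := by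
    intro k hk
    rcases he k hk with h | h <;> rw [h] <;> decide
  have hP : (Pp N e).map (Int.castRingHom (ZMod 2)) = ∑ k ∈ range N, (X : (ZMod 2)[X]) ^ k := by
    simp only [Pp, Polynomial.map_sum, Polynomial.map_mul, Polynomial.map_pow, map_C, map_X]
    apply sum_congr rfl
    intro k hk
    rw [hφ k (mem_range.1 hk)]; simp
  have hR : (Rp N e).map (Int.castRingHom (ZMod 2)) = ∑ k ∈ range N, (X : (ZMod 2)[X]) ^ k := by
    simp only [Rp, Polynomial.map_sum, Polynomial.map_mul, Polynomial.map_pow, map_C, map_X]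
    apply sum_congr rfl
    intro k hk
    have := mem_range.1 hk
    rw [hφ (N - 1 - k) (by omega)]; simp
  have hQ : (Pp N e * Rp N e).map (Int.castRingHom (ZMod 2))
      = ∑ k ∈ range N, (X : (ZMod 2)[X]) ^ (2 * k) := by
    rw [Polynomial.map_mul, hP, hR, ← sq]
    haveI : Fact (Nat.Prime 2) := ⟨Nat.prime_two⟩
    rw [sum_pow_char 2]
    apply sum_congr rfl
    intro k _
    rw [← pow_mul, mul_comm]
  have h1 : ((Pp N e * Rp N e).map (Int.castRingHom (ZMod 2))).coeff (2 * r) = 1 := by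
    rw [hQ, finset_sum_coeff]
    simp only [coeff_X_pow]
    have : ∀ k ∈ range N, (if 2 * r = 2 * k then (1 : ZMod 2) else 0) = if r = k then 1 else 0 := by
      intro k _
      by_cases h : r = k
      · simp [h]
      · have : ¬ (2 * r = 2 * k) := by omega
        simp [h, this]
    rw [sum_congr rfl this, sum_ite_eq, if_pos (mem_range.2 hr)]
  rw [coeff_map, h0] at h1
  simp at h1


lemma sum_sq_coeff_ge (N : ℕ) (hN : 0 < N) (e : ℕ → ℤ) (he : ∀ k < N, e k = 1 ∨ e k = -1) :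
    (N : ℤ) ^ 2 + 2 * ((N / 2 : ℕ) : ℤ) ≤
      ∑ s ∈ range (2 * N - 1), ((Pp N e * Rp N e).coeff s) ^ 2 := by
  set q : ℕ → ℤ := fun s => (Pp N e * Rp N e).coeff s with hq
  set A : Finset ℕ := ((range N).image (fun r => 2 * r)).erase (N - 1) with hA
  have hmem : N - 1 ∈ range (2 * N - 1) := mem_range.2 (by omega)
  have hsub : A ⊆ (range (2 * N - 1)).erase (N - 1) := by
    apply erase_subset_erase
    intro s hs
    obtain ⟨r, hr, rfl⟩ := mem_image.1 hs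
    have := mem_range.1 hr
    exact mem_range.2 (by omega)
  have hcardimg : ((range N).image (fun r => 2 * r)).card = N := by
    rw [card_image_of_injective _ (fun a b h => by simpa using h), card_range]
  have hcard : 2 * (N / 2) ≤ A.card := by
    rcases Nat.even_or_odd' N with ⟨t, ht | ht⟩
    · have hnot : N - 1 ∉ (range N).image (fun r => 2 * r) := by
        intro h
        obtain ⟨r, _, hr⟩ := mem_image.1 h
        omega
      rw [hA, erase_eq_of_notMem hnot, hcardimg]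
      omega
    · have := pred_card_le_card_erase (s := (range N).image (fun r => 2 * r)) (a := N - 1)
      rw [hcardimg, ← hA] at this
      omega
  have h1 : ∀ s ∈ A, (1 : ℤ) ≤ (q s) ^ 2 := by
    intro s hs
    obtain ⟨r, hr, rfl⟩ := mem_image.1 (mem_of_mem_erase hs)
    have hne : q (2 * r) ≠ 0 := coeff_even_ne_zero N e he r (mem_range.1 hr)
    have : 0 < (q (2 * r)) ^ 2 := by positivity
    omega
  calc (N : ℤ) ^ 2 + 2 * ((N / 2 : ℕ) : ℤ) ≤ (N : ℤ) ^ 2 + (A.card : ℤ) := by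
        have : ((2 * (N / 2) : ℕ) : ℤ) ≤ (A.card : ℤ) := by exact_mod_cast hcard
        rw [Nat.cast_mul] at this
        simpa using this
    _ = (q (N - 1)) ^ 2 + ∑ s ∈ A, (1 : ℤ) := by
        rw [hq]
        simp only [coeff_mid N hN e he]
        simp
    _ ≤ (q (N - 1)) ^ 2 + ∑ s ∈ A, (q s) ^ 2 := by
        have := sum_le_sum h1
        linarith
    _ ≤ (q (N - 1)) ^ 2 + ∑ s ∈ (range (2 * N - 1)).erase (N - 1), (q s) ^ 2 := by
        have := sum_le_sum_of_subset_of_nonneg hsub (f := fun s => (q s) ^ 2)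
          (fun i _ _ => by positivity)
        linarith
    _ = ∑ s ∈ range (2 * N - 1), (q s) ^ 2 := add_sum_erase _ (fun s => (q s) ^ 2) hmem


lemma aeval_Pp (N : ℕ) (e : ℕ → ℤ) (z : ℂ) :
    aeval z (Pp N e) = ∑ k ∈ range N, ((e k : ℤ) : ℂ) * z ^ k := by
  simp [Pp, map_sum]

lemma aeval_Rp (N : ℕ) (e : ℕ → ℤ) (z : ℂ) :
    aeval z (Rp N e) = ∑ k ∈ range N, ((e (N - 1 - k) : ℤ) : ℂ) * z ^ k := by
  simp [Rp, map_sum]

lemma norm_aeval_Rp (N : ℕ) (e : ℕ → ℤ) (z : ℂ) (hz : ‖z‖ = 1) :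
    ‖aeval z (Rp N e)‖ = ‖aeval z (Pp N e)‖ := by
  have hzz : z * (starRingEnd ℂ) z = 1 := by
    rw [Complex.mul_conj, Complex.normSq_eq_norm_sq, hz]; simp
  have h1 : aeval z (Rp N e) = z ^ (N - 1) * (starRingEnd ℂ) (aeval z (Pp N e)) := by
    rw [aeval_Rp, aeval_Pp, map_sum, mul_sum]
    rw [← sum_range_reflect (fun k => z ^ (N - 1) * (starRingEnd ℂ) (((e k : ℤ) : ℂ) * z ^ k)) N]
    apply sum_congr rfl
    intro k hk
    have hk' := mem_range.1 hk
    simp only [map_mul, map_pow, map_intCast]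
    have e1 : z ^ (N - 1) = z ^ k * z ^ (N - 1 - k) := by
      rw [← pow_add]; congr 1; omega
    rw [e1]
    have e2 : z ^ (N - 1 - k) * (starRingEnd ℂ) z ^ (N - 1 - k) = 1 := by
      rw [← mul_pow, hzz, one_pow]
    calc ((e (N - 1 - k) : ℤ) : ℂ) * z ^ k
        = ((e (N - 1 - k) : ℤ) : ℂ) * z ^ k * (z ^ (N - 1 - k) * (starRingEnd ℂ) z ^ (N - 1 - k)) := by
          rw [e2, mul_one]
      _ = _ := by ring
  rw [h1, norm_mul, norm_pow, hz, one_pow, one_mul, RCLike.norm_conj]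

lemma parsevalZ (K : ℕ) (hK : 0 < K) (ζ : ℂ) (hζ : IsPrimitiveRoot ζ K) (F : ℤ[X])
    (hF : F.natDegree < K) :
    ∑ j ∈ range K, ‖aeval (ζ ^ j) F‖ ^ 2 = K * ∑ i ∈ range K, ((F.coeff i : ℤ) : ℝ) ^ 2 := by
  rw [← parseval K hK ζ hζ (fun i => ((F.coeff i : ℤ) : ℝ))]
  apply sum_congr rfl
  intro j _
  rw [aeval_eq_sum_range' hF]
  congr 2
  apply sum_congr rfl
  intro i _
  simp [zsmul_eq_mul]

theorem tradeoff (N : ℕ) (hN : 0 < N) (e : ℕ → ℤ) (he : ∀ k < N, e k = 1 ∨ e k = -1) (m M : ℝ)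
    (h : ∀ z : ℂ, ‖z‖ = 1 → m ≤ ‖∑ k ∈ range N, ((e k : ℤ) : ℂ) * z ^ k‖ ^ 2 ∧
      ‖∑ k ∈ range N, ((e k : ℤ) : ℂ) * z ^ k‖ ^ 2 ≤ M) :
    2 * ((N / 2 : ℕ) : ℝ) ≤ (M - N) * (N - m) := by
  set K := 2 * N - 1 with hKdef
  have hK : 0 < K := by omega
  set ζ : ℂ := Complex.exp (2 * Real.pi * Complex.I / K) with hζdef
  have hζ : IsPrimitiveRoot ζ K := Complex.isPrimitiveRoot_exp K hK.ne'
  have hnorm : ∀ j, ‖ζ ^ j‖ = 1 := by
    intro j; rw [norm_pow, hζ.norm'_eq_one hK.ne', one_pow]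
  set x : ℕ → ℝ := fun j => ‖aeval (ζ ^ j) (Pp N e)‖ ^ 2 with hx
  have hxm : ∀ j, m ≤ x j ∧ x j ≤ M := by
    intro j
    have := h (ζ ^ j) (hnorm j)
    rw [← aeval_Pp] at this
    exact this
  -- first moment
  have hS1 : ∑ j ∈ range K, x j = K * N := by
    rw [hx, parsevalZ K hK ζ hζ (Pp N e) (lt_of_le_of_lt (natDegree_Pp N e) (by omega))]
    congr 1
    have h1 : ∀ i ∈ range K, (((Pp N e).coeff i : ℤ) : ℝ) ^ 2 = if i < N then 1 else 0 := by
      intro i _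
      rw [coeff_Pp]
      split_ifs with hi
      · rcases he i hi with h | h <;> rw [h] <;> norm_num
      · simp
    rw [sum_congr rfl h1, ← sum_filter]
    have : (range K).filter (fun i => i < N) = range N := by
      ext i; simp only [mem_filter, mem_range]; omega
    rw [this]; simp
  -- second moment
  have hS2 : (K : ℝ) * ((N : ℝ) ^ 2 + 2 * ((N / 2 : ℕ) : ℝ)) ≤ ∑ j ∈ range K, (x j) ^ 2 := by
    have hdeg : (Pp N e * Rp N e).natDegree < K := by
      have := natDegree_mul_le (p := Pp N e) (q := Rp N e)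
      have h1 := natDegree_Pp N e
      have h2 := natDegree_Rp N e
      omega
    have h1 : ∀ j ∈ range K, (x j) ^ 2 = ‖aeval (ζ ^ j) (Pp N e * Rp N e)‖ ^ 2 := by
      intro j _
      rw [map_mul, norm_mul, norm_aeval_Rp N e _ (hnorm j)]
      simp only [hx]; ring
    rw [sum_congr rfl h1, parsevalZ K hK ζ hζ _ hdeg]
    apply mul_le_mul_of_nonneg_left _ (by positivity)
    have := sum_sq_coeff_ge N hN e he
    have h2 : (((N : ℤ) ^ 2 + 2 * ((N / 2 : ℕ) : ℤ) : ℤ) : ℝ) ≤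
        ((∑ s ∈ range (2 * N - 1), ((Pp N e * Rp N e).coeff s) ^ 2 : ℤ) : ℝ) := by
      exact_mod_cast this
    push_cast at h2
    exact h2
  have hpos : 0 ≤ ∑ j ∈ range K, (M - x j) * (x j - m) := by
    apply sum_nonneg
    intro j _
    have := hxm j
    exact mul_nonneg (by linarith) (by linarith)
  have hexp : ∑ j ∈ range K, (M - x j) * (x j - m)
      = (M + m) * ∑ j ∈ range K, x j - K * (M * m) - ∑ j ∈ range K, (x j) ^ 2 := by
    have : ∀ j ∈ range K, (M - x j) * (x j - m) = (M + m) * x j - M * m - (x j) ^ 2 := by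
      intro j _; ring
    rw [sum_congr rfl this, sum_sub_distrib, sum_sub_distrib, ← mul_sum]
    simp
  rw [hexp, hS1] at hpos
  have hKpos : (0 : ℝ) < K := by exact_mod_cast hK
  have : (K : ℝ) * (2 * ((N / 2 : ℕ) : ℝ)) ≤ K * ((M - N) * (N - m)) := by nlinarith
  exact le_of_mul_le_mul_left this hKpos


theorem tradeoff_fin (N : ℕ) (ε : Fin N → ℤ) (hε : ∀ k, ε k = 1 ∨ ε k = -1) (m M : ℝ)
    (h : ∀ z : ℂ, ‖z‖ = 1 → m ≤ ‖∑ k : Fin N, ((ε k : ℤ) : ℂ) * z ^ (k : ℕ)‖ ^ 2 ∧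
      ‖∑ k : Fin N, ((ε k : ℤ) : ℂ) * z ^ (k : ℕ)‖ ^ 2 ≤ M) :
    2 * ((N / 2 : ℕ) : ℝ) ≤ (M - N) * (N - m) := by
  rcases Nat.eq_zero_or_pos N with hN | hN
  · subst hN
    have := h 1 (by simp)
    simp only [univ_eq_empty, sum_empty, norm_zero] at this
    simp only [Nat.zero_div, Nat.cast_zero, mul_zero, sub_zero, zero_sub]
    nlinarith [this.1, this.2]
  · set e : ℕ → ℤ := fun k => if hk : k < N then ε ⟨k, hk⟩ else 0 with he
    have he1 : ∀ k < N, e k = 1 ∨ e k = -1 := by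
      intro k hk
      simp only [he, dif_pos hk]
      exact hε _
    have hsum : ∀ z : ℂ, ∑ k ∈ range N, ((e k : ℤ) : ℂ) * z ^ k
        = ∑ k : Fin N, ((ε k : ℤ) : ℂ) * z ^ (k : ℕ) := by
      intro z
      rw [← Fin.sum_univ_eq_sum_range (fun k => ((e k : ℤ) : ℂ) * z ^ k) N]
      apply sum_congr rfl
      intro k _
      simp [he, k.2]
    apply tradeoff N hN e he1 m M
    intro z hz
    rw [hsum]
    exact h z hz

theorem rate_fin (N : ℕ) (hN : 1 ≤ N) (ε : Fin N → ℤ) (hε : ∀ k, ε k = 1 ∨ ε k = -1) :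
    ∃ z : ℂ, ‖z‖ = 1 ∧ Real.sqrt (N - 1) / (2 * N) ≤
      |‖∑ k : Fin N, ((ε k : ℤ) : ℂ) * z ^ (k : ℕ)‖ / Real.sqrt N - 1| := by
  by_contra hcon
  push_neg at hcon
  have hNpos : (0 : ℝ) < N := by exact_mod_cast hN
  have hN1 : (0 : ℝ) ≤ (N : ℝ) - 1 := by
    have : (1 : ℝ) ≤ N := by exact_mod_cast hN
    linarith
  set s := Real.sqrt N with hs
  have hs0 : 0 < s := Real.sqrt_pos.2 hNpos
  have hs2 : s ^ 2 = N := Real.sq_sqrt hNpos.le
  set d := Real.sqrt (N - 1) / (2 * N) with hd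
  have hd0 : 0 ≤ d := by positivity
  have hd2 : d ^ 2 * (4 * (N : ℝ) ^ 2) = N - 1 := by
    rw [hd, div_pow, Real.sq_sqrt hN1]
    field_simp
    ring
  have hdpos : 0 < d := by
    have := hcon 1 (by simp)
    exact lt_of_le_of_lt (abs_nonneg _) this
  have hd1 : d < 1 := by
    by_contra hge
    push_neg at hge
    have : (1 : ℝ) ≤ d ^ 2 := by nlinarith
    have hNN : (1 : ℝ) ≤ N := by exact_mod_cast hN
    nlinarith
  have key := tradeoff_fin N ε hε (((1 - d) * s) ^ 2) (((1 + d) * s) ^ 2) (by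
    intro z hz
    have h1 := hcon z hz
    rw [abs_lt] at h1
    set w := ‖∑ k : Fin N, ((ε k : ℤ) : ℂ) * z ^ (k : ℕ)‖ with hw
    have hw0 : 0 ≤ w := norm_nonneg _
    have h2 : (1 - d) * s < w := by
      have := h1.1
      have h3 : 1 - d < w / s := by linarith
      rwa [lt_div_iff₀ hs0] at h3
    have h3 : w < (1 + d) * s := by
      have := h1.2
      have h4 : w / s < 1 + d := by linarith
      rwa [div_lt_iff₀ hs0] at h4
    have h4 : 0 ≤ (1 - d) * s := mul_nonneg (by linarith) hs0.le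
    constructor
    · exact pow_le_pow_left₀ h4 h2.le 2
    · exact pow_le_pow_left₀ hw0 h3.le 2)
  have hfloor : (N : ℝ) - 1 ≤ 2 * ((N / 2 : ℕ) : ℝ) := by
    have : N - 1 ≤ 2 * (N / 2) := by omega
    have h2 : ((N - 1 : ℕ) : ℝ) ≤ ((2 * (N / 2) : ℕ) : ℝ) := by exact_mod_cast this
    rw [Nat.cast_sub hN] at h2
    push_cast at h2
    exact h2
  have hexp : (((1 + d) * s) ^ 2 - N) * (N - ((1 - d) * s) ^ 2)
      = (N : ℝ) ^ 2 * (4 * d ^ 2 - d ^ 4) := by
    have e1 : ((1 + d) * s) ^ 2 = (1 + d) ^ 2 * N := by rw [mul_pow, hs2]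
    have e2 : ((1 - d) * s) ^ 2 = (1 - d) ^ 2 * N := by rw [mul_pow, hs2]
    rw [e1, e2]; ring
  rw [hexp] at key
  have hpos4 : 0 < (N : ℝ) ^ 2 * d ^ 4 := by positivity
  nlinarith

end Vale.Agent.P110
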